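import Vale.Agent.H86.CK.Main2

/-!
# P322 (Courtade-Kumar): functions with an influential coordinate

For every `n`, every Boolean function `f` on `n` bits (balanced or not), every crossover
probability `ε ∈ (0, 1/2)` and every coordinate `i`: if

  `1 - Inf_i(f) ≤ 2 √(ε (1 - ε)) · Inf_i(f)`,

that is `Inf_i(f) ≥ 1 / (1 + √(1 - ρ²))` with `ρ = 1 - 2 ε`, then
`I(f(X);Y) ≤ 1 - h₂(ε)`, the bound conjectured by Courtade and Kumar.

The cube `{-1,1}^n` is encoded as `Fin n → Bool`. Proof idea: condition exactly on the
distinguished coordinate, apply the strong data processing inequality of the binary symmetric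
channel on the remaining coordinates, and reduce to a one-variable entropy inequality
(a linear lower bound for the entropy of a tilted two-point vector, valid up to the tilt
`√(ε (1 - ε))`), see `Vale.Agent.H86.CK`.
-/

theorem Vale.Agent.Results.P322.A_InfluentialCoord.result
    (n : ℕ) (f : (Fin n → Bool) → Bool) (ε : ℝ) (h0 : 0 < ε) (h1 : ε < 1 / 2)
    (i : Fin n)
    (hI : 1 - Vale.Agent.H86.CK.influence n f i
      ≤ 2 * Real.sqrt (ε * (1 - ε)) * Vale.Agent.H86.CK.influence n f i) :
    Vale.Agent.H86.CK.mutualInfoBits (Vale.Agent.H86.CK.jointPmf n ε f)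
      ≤ 1 + ε * Real.logb 2 ε + (1 - ε) * Real.logb 2 (1 - ε) :=
  Vale.Agent.H86.CK.ck_influence_sqrt n f ε h0 h1 i hI
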