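import Vale.Agent.H86.CK.Main2

/-!
# P322 (Courtade-Kumar): an influential coordinate, and functions close to a dictator

Two statements about Boolean functions `f` on `n` bits (balanced or not) and every crossover
probability `ε ∈ (0, 1/2)`; `X` is uniform on the cube and `Y` is `X` sent through the binary
symmetric channel.

1. If some coordinate `i` satisfies `1 - Inf_i(f) ≤ 2 √(ε (1 - ε)) · Inf_i(f)`, then
   `I(f(X);Y) ≤ 1 - h₂(ε)`, the bound conjectured by Courtade and Kumar.
2. If `f` differs from a dictator `x ↦ x i` or from its negation on at most a fraction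
   `√(ε (1 - ε)) / 2` of the cube, then `I(f(X);Y) ≤ 1 - h₂(ε)`.

The second statement follows from the first: a function that differs from a dictator on a
fraction `δ` of the cube has `Inf_i(f) ≥ 1 - 2 δ`.  The cube `{-1,1}^n` is encoded as
`Fin n → Bool`; `xor (x i) c` is the dictator (`c = false`) or its negation (`c = true`).
-/

namespace Vale.Agent.Results.P322.B_NearDictators

open Vale.Agent.H86.CK

/-- A function that differs from the dictator `x ↦ x i` (or from its negation, `c = true`) on a
fraction `δ` of the cube has influence at least `1 - 2 δ` in the coordinate `i`. -/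
theorem influence_ge_of_near (n : ℕ) (f : (Fin n → Bool) → Bool) (i : Fin n) (c : Bool) :
    1 - 2 * (((Finset.univ.filter (fun x : Fin n → Bool => f x ≠ xor (x i) c)).card : ℝ) / 2 ^ n)
      ≤ influence n f i := by
  have hff : ∀ x : Fin n → Bool,
      Function.update (Function.update x i (!(x i))) i
        (!(Function.update x i (!(x i)) i)) = x := by
    intro x
    simp
  have hsub : Finset.univ \ Finset.univ.filter
        (fun x : Fin n → Bool => f x ≠ f (Function.update x i (!(x i))))
      ⊆ Finset.univ.filter (fun x : Fin n → Bool => f x ≠ xor (x i) c)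
        ∪ (Finset.univ.filter (fun x : Fin n → Bool => f x ≠ xor (x i) c)).image
          (fun x => Function.update x i (!(x i))) := by
    intro x hx
    rw [Finset.mem_sdiff] at hx
    by_contra hcon
    rw [Finset.mem_union, not_or] at hcon
    obtain ⟨h1, h2⟩ := hcon
    have h1' : f x = xor (x i) c := by
      by_contra h
      exact h1 (Finset.mem_filter.2 ⟨Finset.mem_univ _, h⟩)
    have h2' : f (Function.update x i (!(x i)))
        = xor ((Function.update x i (!(x i))) i) c := by
      by_contra h
      apply h2
      rw [Finset.mem_image]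
      exact ⟨Function.update x i (!(x i)), Finset.mem_filter.2 ⟨Finset.mem_univ _, h⟩, hff x⟩
    apply hx.2
    rw [Finset.mem_filter]
    refine ⟨Finset.mem_univ _, ?_⟩
    rw [h1', h2', Function.update_self]
    cases x i <;> cases c <;> simp
  have hcard1 : (Finset.univ \ Finset.univ.filter
        (fun x : Fin n → Bool => f x ≠ f (Function.update x i (!(x i))))).card
      ≤ 2 * (Finset.univ.filter (fun x : Fin n → Bool => f x ≠ xor (x i) c)).card := by
    refine le_trans (Finset.card_le_card hsub) ?_
    refine le_trans (Finset.card_union_le _ _) ?_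
    have h3 := Finset.card_image_le
      (s := Finset.univ.filter (fun x : Fin n → Bool => f x ≠ xor (x i) c))
      (f := fun x : Fin n → Bool => Function.update x i (!(x i)))
    omega
  have hcard2 : (Finset.univ \ Finset.univ.filter
        (fun x : Fin n → Bool => f x ≠ f (Function.update x i (!(x i))))).card
      + (Finset.univ.filter
        (fun x : Fin n → Bool => f x ≠ f (Function.update x i (!(x i))))).card = 2 ^ n := by
    rw [Finset.card_sdiff_add_card_eq_card (Finset.subset_univ _), Finset.card_univ]
    simp
  have h2n : (0 : ℝ) < 2 ^ n := by positivity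
  unfold influence
  rw [le_div_iff₀ h2n]
  have e1 : ((Finset.univ \ Finset.univ.filter
        (fun x : Fin n → Bool => f x ≠ f (Function.update x i (!(x i))))).card : ℝ)
      + ((Finset.univ.filter
        (fun x : Fin n → Bool => f x ≠ f (Function.update x i (!(x i))))).card : ℝ)
      = 2 ^ n := by exact_mod_cast hcard2
  have e2 : ((Finset.univ \ Finset.univ.filter
        (fun x : Fin n → Bool => f x ≠ f (Function.update x i (!(x i))))).card : ℝ)
      ≤ 2 * ((Finset.univ.filter (fun x : Fin n → Bool => f x ≠ xor (x i) c)).card : ℝ) := by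
    exact_mod_cast hcard1
  have e3 : (1 - 2 * (((Finset.univ.filter
        (fun x : Fin n → Bool => f x ≠ xor (x i) c)).card : ℝ) / 2 ^ n)) * 2 ^ n
      = 2 ^ n - 2 * ((Finset.univ.filter
        (fun x : Fin n → Bool => f x ≠ xor (x i) c)).card : ℝ) := by
    field_simp
  rw [e3]
  linarith

/-- The Courtade-Kumar inequality `I(f(X);Y) ≤ 1 - h₂(ε)` for functions with an influential
coordinate, and for functions close to a dictator or to the negation of a dictator. -/
theorem result :
    (∀ (n : ℕ) (f : (Fin n → Bool) → Bool) (ε : ℝ), 0 < ε → ε < 1 / 2 → ∀ i : Fin n,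
      1 - influence n f i ≤ 2 * Real.sqrt (ε * (1 - ε)) * influence n f i →
      mutualInfoBits (jointPmf n ε f)
        ≤ 1 + ε * Real.logb 2 ε + (1 - ε) * Real.logb 2 (1 - ε)) ∧
    (∀ (n : ℕ) (f : (Fin n → Bool) → Bool) (ε : ℝ), 0 < ε → ε < 1 / 2 →
      ∀ (i : Fin n) (c : Bool),
      ((Finset.univ.filter (fun x : Fin n → Bool => f x ≠ xor (x i) c)).card : ℝ)
        ≤ Real.sqrt (ε * (1 - ε)) / 2 * 2 ^ n →
      mutualInfoBits (jointPmf n ε f)
        ≤ 1 + ε * Real.logb 2 ε + (1 - ε) * Real.logb 2 (1 - ε)) := by
  refine ⟨fun n f ε h0 h1 i hI => ck_influence_sqrt n f ε h0 h1 i hI, ?_⟩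
  intro n f ε h0 h1 i c hD
  apply ck_influence_sqrt n f ε h0 h1 i
  have hinf := influence_ge_of_near n f i c
  have h2n : (0 : ℝ) < 2 ^ n := by positivity
  have hs0 : 0 ≤ Real.sqrt (ε * (1 - ε)) := Real.sqrt_nonneg _
  have hs1 : Real.sqrt (ε * (1 - ε)) ≤ 1 / 2 :=
    Real.sqrt_le_iff.2 ⟨by norm_num, by nlinarith [sq_nonneg (ε - 1 / 2)]⟩
  have hfrac : ((Finset.univ.filter (fun x : Fin n → Bool => f x ≠ xor (x i) c)).card : ℝ) / 2 ^ n
      ≤ Real.sqrt (ε * (1 - ε)) / 2 := by
    rw [div_le_iff₀ h2n]
    exact hD
  have hge : 1 - Real.sqrt (ε * (1 - ε)) ≤ influence n f i := by linarith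
  nlinarith

end Vale.Agent.Results.P322.B_NearDictators
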